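import Vale.Agent.P022D.W.Tame

namespace Vale.Agent.P022F.W.TameAt
export Vale.Agent.P022D.W.TameAt (
  ID odd rel mk cjN phi cyc NI cjI tau gen)
end Vale.Agent.P022F.W.TameAt

namespace Vale.Agent.P022F.W
export Vale.Agent.P022D.W (
  oddMod_mul conj_inP OddMod exists_tau TameAt dec_fin phi_pow dec odd_of_in1 phi_mem tame
  exists_phi cyc_level rel_in1 inP_le_dec exists_chi chi_data dec_gen)
end Vale.Agent.P022F.W

namespace Vale.Agent.P022F.W.OddMod
export Vale.Agent.P022D.W.OddMod (
  conj of_pow mul_mem mono)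
end Vale.Agent.P022F.W.OddMod
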