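import Vale.Agent.P022D.W.Core
import Vale.Agent.P022F.W.Tame

namespace Vale.Agent.P022F.W.WD
export Vale.Agent.P022D.W.WD (
  g0D dg g0H dne mem_iff conj of_odd dia ne ane two mk mul_not ad ne' odd off)
end Vale.Agent.P022F.W.WD

namespace Vale.Agent.P022F.W.TameAt
export Vale.Agent.P022D.W.TameAt (
  comm mul_pow comm_dec comp rel_pow conj_odd)
end Vale.Agent.P022F.W.TameAt

namespace Vale.Agent.P022F.W
export Vale.Agent.P022D.W (
  f_inv ent1 diag_step mon Mon ent2 LR Mt N_le WD diag Lift)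
end Vale.Agent.P022F.W

namespace Vale.Agent.P022F.W.Mon
export Vale.Agent.P022D.W.Mon (
  mk swp dia off)
end Vale.Agent.P022F.W.Mon

namespace Vale.Agent.P022F.W.LR
export Vale.Agent.P022D.W.LR (
  of_finite mk loc isNilpotent nil)
end Vale.Agent.P022F.W.LR

namespace Vale.Agent.P022F.W.Lift
export Vale.Agent.P022D.W.Lift (
  ent eq)
end Vale.Agent.P022F.W.Lift
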