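import Vale.Agent.P022F.W.Cut

/-!
# P022F, block W: the cut by the types over an arbitrary ring of operators
-/

set_option linter.all false

noncomputable section

namespace Vale.Agent.P022F.Loc

open NumberField IsLocalRing Finset Classical
open Vale.Agent.P022 Vale.Agent.P022.H443 Vale.Agent.P022D Vale.Agent.P022D.R Vale.Agent.P022D.W
open Vale.Agent.P022D.W.Step Vale.Agent.P022F.As
open Vale.Agent.P022D.Sel (M2)

variable {O F : Type} [CommRing O] [Field F] {S : R.Dat O F} {L : Pl O}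

theorem WRel.map {l a b : ℕ} {x : O} {c z : Fin 4 → O} {B B' : Type*} [CommRing B] [CommRing B']
    {ι : O →+* B} {t d : GQ → B} {ι' : O →+* B'} {t' d' : GQ → B'} (ψ : B →+* B')
    (hι : ∀ o, ψ (ι o) = ι' o) (ht : ∀ g, ψ (t g) = t' g) (hd : ∀ g, ψ (d g) = d' g)
    {E : B' → B' → Prop} {e1 e2 dl : B}
    (h : WRel L l a b x c z ι t d (fun p q => E (ψ p) (ψ q)) e1 e2 dl) :
    WRel L l a b x c z ι' t' d' E (ψ e1) (ψ e2) (ψ dl) := by
  obtain ⟨a1, a2, a3, a4, a5, a6, a7, a8, a9, a10⟩ := h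
  simp only [map_pow ψ, map_mul ψ, map_one ψ, hι, ht, hd] at a4 a5 a6 a8 a9 a10
  refine ⟨by simp [a1, hι, ht], by simp [a2, hι, ht], by simp [a3, hι, hd], a4, a5, a6,
    fun h => ?_, a8, a9, a10⟩
  obtain ⟨b1, b2⟩ := a7 h
  exact ⟨by simpa [hι, ht] using congrArg ψ b1, by simpa [hι, ht] using congrArg ψ b2⟩

/-- a ring with symbols for constants, traces and determinants -/
structure Sy (O B : Type) [CommRing O] [CommRing B] where
  ι : O →+* B
  t : GQ → B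
  d : GQ → B

variable {B : Type} [CommRing B] (s : Sy O B) {X : Type*} [AddCommGroup X] [Module B X]

/-- evaluation of the symbols -/
def Sy.ev : Tg O →+* B := MvPolynomial.eval₂Hom s.ι (Sum.elim s.t (Sum.elim s.d fun _ => 0))

theorem Sy.ev_C (o : O) : s.ev (MvPolynomial.C o) = s.ι o := by simp [Sy.ev]
theorem Sy.ev_c (o : O) : s.ev (cc o) = s.ι o := s.ev_C o
theorem Sy.ev_t (g : GQ) : s.ev (tt g) = s.t g := by simp [Sy.ev, tt]
theorem Sy.ev_d (g : GQ) : s.ev (As.dd g) = s.d g := by simp [Sy.ev, As.dd]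
theorem Sy.ev_y (i : ℕ) : s.ev (As.yy i) = 0 := by simp [Sy.ev, As.yy]

/-- a Galois vector which is primary for `r` -/
structure Sy.Gv (r : GQ →* M2 O) (v : X) : Prop where
  fin : Finite (Submodule.span B {v})
  nilt : ∀ g, ∃ k : ℕ, (s.t g - s.ι (r g).trace) ^ k • v = 0
  nild : ∀ g, ∃ k : ℕ, (s.d g - s.ι (r g).det) ^ k • v = 0
  t1 : s.t 1 • v = (2 : B) • v
  tc : ∀ g h, s.t (g * h) • v = s.t (h * g) • v
  tm : ∀ g h, (s.t g * s.t h) • v = (s.t (g * h) + s.d h * s.t (g * h⁻¹)) • v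
  d1 : s.d 1 • v = v
  dm : ∀ g h, s.d (g * h) • v = (s.d g * s.d h) • v
  opn : ∃ U : Subgroup GQ, IsOpen (U : Set GQ) ∧ ∀ u ∈ U, ∀ g, s.t (g * u) • v = s.t g • v

variable {s}

theorem mem_cm {v : X} {p : Tg O} :
    p ∈ (Ideal.torsionOf B X v).comap s.ev ↔ s.ev p • v = 0 := by
  rw [Ideal.mem_comap, Ideal.mem_torsionOf_iff]

theorem Sy.Gv.gp0 {r : GQ →* M2 O} {v : X} (h : s.Gv r v) :
    Gp0 r ((Ideal.torsionOf B X v).comap s.ev) := by
  refine ⟨?_, fun g => (h.nilt g).imp fun k hk => ?_, fun g => (h.nild g).imp fun k hk => ?_,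
    fun i => ⟨1, ?_⟩, ?_, fun g k => ?_, fun g k => ?_, ?_, fun g k => ?_,
    h.opn.imp fun U hU => ⟨hU.1, fun u hu g => ?_⟩⟩
  · have := h.fin
    have : Finite (B ⧸ Ideal.torsionOf B X v) :=
      Finite.of_equiv _ (Ideal.quotTorsionOfEquivSpanSingleton B X v).symm.toEquiv
    exact Finite.of_injective _ (Ideal.quotientMap_injective (f := s.ev))
  all_goals
    simp only [mem_cm, map_pow, map_sub, map_add, map_mul s.ev, s.ev_c, s.ev_t, s.ev_d, s.ev_y,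
      map_ofNat, map_one s.ev, pow_one, zero_smul]
  exacts [hk, hk, by rw [sub_smul, h.t1, sub_self], by rw [sub_smul, h.tc, sub_self],
    by rw [sub_smul, h.tm, sub_self], by rw [sub_smul, h.d1, one_smul, sub_self],
    by rw [sub_smul, h.dm, sub_self], by rw [sub_smul, hU.2 u hu, sub_self]]

variable (s) (L) in
/-- the equations of the class at the regular primes -/
def Sy.JW : Set B := {p | (∃ g ∈ L.TT, p = s.t g - s.ι (L.r g).trace) ∨
  ∃ l ∈ L.W, p = s.d (L.τ l) - s.ι (L.r (L.τ l)).det}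

namespace Cb

variable (c : Cw S L) (s)

/-- the type elements -/
def y (l : ℕ) (i : Fin 2) : B := yW L l (c.e l) (c.u l) (c.v l) s.ι s.t i

/-- the normalised determinant of `τ l` -/
def dl (l : ℕ) : B := s.d (L.τ l) * s.ι (c.x l)

/-- the generator of the augmentation ideal of the group of scalars at `l` -/
def w (l : ℕ) : B := dl s c l - 1

/-- the equations of the cut at `l` -/
def J (l : ℕ) : Set B :=
  if L.Sp l then {y s c l 0 - 1, y s c l 1 - 1} else if L.In l then {y s c l 0 - 1}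
  else {dl s c l - 1}

/-- the norm element at `l` -/
def nm (l : ℕ) : B :=
  if L.Sp l then (∑ i ∈ range (2 ^ c.a l), y s c l 0 ^ i) * ∑ i ∈ range (2 ^ c.a l), y s c l 1 ^ i
  else if L.In l then ∑ i ∈ range (2 ^ (c.a l + c.b l)), y s c l 0 ^ i
  else ∑ i ∈ range (2 ^ c.a l), dl s c l ^ i

/-- **the norm element of the cut** -/
def NN : B := ∏ l ∈ L.W, nm s c l

variable {s} [IsLocalRing O] [CharP F 2] (hL : L.Ok S) {l : ℕ} {v : X}
include hL

theorem rel (hl : l ∈ L.W) (h : s.Gv L.r v) :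
    WRel L l (c.a l) (c.b l) (c.x l) (cW (c.e l) (c.u l) (c.v l)) (zW L l (c.e l) (c.u l))
      s.ι s.t s.d (fun p q => p • v = q • v) (y s c l 0) (y s c l 1) (dl s c l) := by
  obtain ⟨m, hm, e⟩ := c.ha l (mem_union_left _ hl)
  obtain ⟨w, hw, e'⟩ := c.hb l (mem_union_left _ hl)
  have k := WRel.map s.ev s.ev_C s.ev_t s.ev_d (E := fun p q => p • v = q • v)
    (((c.wc l hl).wlocI hL hl hm hw e e' (c.hx l) h.gp0).imp fun p q k => by
      rwa [mem_cm, map_sub, sub_smul, sub_eq_zero] at k)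
  rwa [yT, yT, yW_map s.ev s.ev_C s.ev_t, yW_map s.ev s.ev_C s.ev_t, map_mul, s.ev_d, s.ev_c] at k

theorem dl_pow (hl : l ∈ L.W) (h : s.Gv L.r v) : dl s c l ^ 2 ^ c.a l • v = v :=
  (rel c hL hl h).dl_pow.trans (one_smul _ _)

omit hL [IsLocalRing O] in
theorem geo {y : B} {n : ℕ} (h : y ^ n • v = v) : ((y - 1) * ∑ i ∈ range n, y ^ i) • v = 0 := by
  rw [mul_geom_sum, sub_smul, h, one_smul, sub_self]

theorem ann (hl : l ∈ L.W) (h : s.Gv L.r v) : ∀ p ∈ J s c l, (p * nm s c l) • v = 0 := by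
  intro p hp
  by_cases h1 : L.Sp l
  · obtain ⟨a1, a2, -⟩ := (rel c hL h1.1 h).split h1.2.1 h1.2.2
    rw [one_smul] at a1 a2
    rw [J, if_pos h1] at hp
    rw [nm, if_pos h1]
    rcases hp with rfl | rfl
    · rw [← mul_assoc, mul_comm, mul_smul, geo a1, smul_zero]
    · rw [mul_left_comm, mul_smul, geo a2, smul_zero]
  by_cases h2 : L.In l
  · obtain ⟨a1, -⟩ := (rel c hL h2.1 h).inert h2.2.1 h2.2.2
    rw [one_smul] at a1
    rw [J, if_neg h1, if_pos h2] at hp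
    rw [nm, if_neg h1, if_pos h2, hp, geo a1]
  · rw [J, if_neg h1, if_neg h2] at hp
    rw [nm, if_neg h1, if_neg h2, hp, geo (dl_pow c hL hl h)]

/-- a vector killed by the equations of the cut is in the class -/
theorem to_JW (h : s.Gv L.r v) (h0 : ∀ p ∈ ⋃ l ∈ L.W, J s c l, p • v = 0) :
    ∀ p ∈ s.JW L, p • v = 0 := by
  have k : ∀ l ∈ L.W, ∀ p, p - 1 ∈ J s c l → p • v = v := fun l hl p hp => by
    have := h0 _ (Set.mem_iUnion₂.2 ⟨l, hl, hp⟩)
    rwa [sub_smul, one_smul, sub_eq_zero] at this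
  have pw : ∀ {p : B}, p • v = v → ∀ n : ℕ, p ^ n • v = v := fun hp n => by
    induction n with
    | zero => simp
    | succ n ih => rw [pow_succ, mul_smul, hp, ih]
  have s' : ∀ l, L.Sp l → y s c l 0 • v = v ∧ y s c l 1 • v = v := fun l h1 =>
    ⟨k l h1.1 _ (by rw [J, if_pos h1]; exact Or.inl rfl),
      k l h1.1 _ (by rw [J, if_pos h1]; exact Or.inr rfl)⟩
  have i : ∀ l, L.In l → y s c l 0 • v = v := fun l h2 =>
    k l h2.1 _ (by rw [J, if_neg (fun h1 : L.Sp l => h2.2.2 h1.2.2), if_pos h2]; rfl)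
  have f1 : ∀ l ∈ L.W, L.τ l ∈ L.Hl l → ∀ j, y s c l j • v = v := fun l hl hτ j => by
    by_cases hφ : L.φ l ∈ L.Hl l
    · fin_cases j
      exacts [(s' l ⟨hl, hτ, hφ⟩).1, (s' l ⟨hl, hτ, hφ⟩).2]
    · fin_cases j
      exacts [i l ⟨hl, hτ, hφ⟩,
        ((rel c hL hl h).inert hτ hφ).2.1.trans (pw (i l ⟨hl, hτ, hφ⟩) l)]
  have f2 : ∀ l ∈ L.W, dl s c l • v = v := fun l hl => by
    by_cases h1 : L.Sp l
    · rw [((rel c hL h1.1 h).split h1.2.1 h1.2.2).2.2, mul_smul, (s' l h1).2, (s' l h1).1]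
    by_cases h2 : L.In l
    · exact ((rel c hL h2.1 h).inert h2.2.1 h2.2.2).2.2.trans (pw (i l h2) _)
    · exact k l hl _ (by rw [J, if_neg h1, if_neg h2]; rfl)
  rintro _ (⟨g, ⟨l, hl, hg⟩, rfl⟩ | ⟨l, hl, rfl⟩) <;> rw [sub_smul, sub_eq_zero]
  · have key : s.t (L.τ l) • v = s.ι (L.r (L.τ l)).trace • v ∧
        s.t (L.τ l * L.g0 l) • v = s.ι (L.r (L.τ l * L.g0 l)).trace • v := by
      by_cases hτ : L.τ l ∈ L.Hl l
      · exact (c.wc l hl).cut hτ s.ι s.t (f1 l hl hτ)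
      · exact (rel c hL hl h).ram hτ
    rcases hg with rfl | rfl | rfl
    exacts [key.1, key.2, (rel c hL hl h).tg]
  · conv_rhs => rw [← f2 l hl, ← mul_smul, dl, mul_left_comm, ← map_mul, mul_comm _ (c.x l),
      c.hx, map_one, mul_one]

omit hL [IsLocalRing O] [CharP F 2] in
/-- a vector in the class is killed by the equations of the cut -/
theorem of_JW (h0 : ∀ p ∈ s.JW L, p • v = 0) : ∀ p ∈ ⋃ l ∈ L.W, J s c l, p • v = 0 := by
  have ht : ∀ g ∈ L.TT, s.t g • v = s.ι (L.r g).trace • v := fun g hg => by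
    have := h0 _ (Or.inl ⟨g, hg, rfl⟩)
    rwa [sub_smul, sub_eq_zero] at this
  have d : ∀ l ∈ L.W, (dl s c l - 1) • v = 0 := fun l hl => by
    have := h0 _ (Or.inr ⟨l, hl, rfl⟩)
    rw [sub_smul, sub_eq_zero] at this
    rw [sub_smul, dl, mul_comm, mul_smul, this, ← mul_smul, ← map_mul, c.hx, map_one, sub_self]
  have y' : ∀ l ∈ L.W, L.τ l ∈ L.Hl l → ∀ i, (y s c l i - 1) • v = 0 := fun l hl hτ i => by
    have a1 := ht _ ⟨l, hl, Or.inl rfl⟩
    have a2 := ht _ ⟨l, hl, Or.inr (Or.inl rfl)⟩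
    have k : ∀ p q : O, (s.ι p * s.t (L.τ l * L.g0 l) + s.ι q * s.t (L.τ l)) • v =
        s.ι (p * (L.r (L.τ l * L.g0 l)).trace + q * (L.r (L.τ l)).trace) • v := fun p q => by
      rw [add_smul, mul_smul, mul_smul, a1, a2]
      simp only [map_add, map_mul s.ι, add_smul, mul_smul]
    obtain ⟨e0, e1⟩ := yW_c (L := L) (l := l) (e := c.e l) (u := c.u l) (v := c.v l) s.ι s.t
    obtain ⟨f0, f1⟩ := yW_c (L := L) (l := l) (e := c.e l) (u := c.u l) (v := c.v l)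
      (RingHom.id O) fun g => (L.r g).trace
    have c0 := (c.wc l hl).chi hτ i
    simp only [RingHom.id_apply] at f0 f1
    rw [sub_smul, sub_eq_zero]
    fin_cases i
    · show yW L l (c.e l) (c.u l) (c.v l) s.ι s.t 0 • v = _
      rw [e0, k, f0.symm.trans c0, map_one]
    · show yW L l (c.e l) (c.u l) (c.v l) s.ι s.t 1 • v = _
      rw [e1, k, f1.symm.trans c0, map_one]
  intro p hp
  obtain ⟨l, hl, hp⟩ := Set.mem_iUnion₂.1 hp
  rw [J] at hp
  split_ifs at hp with h1 h2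
  · rcases hp with rfl | rfl
    exacts [y' l h1.1 h1.2.1 0, y' l h1.1 h1.2.1 1]
  · exact hp ▸ y' l h2.1 h2.2.1 0
  · exact hp ▸ d l hl

/-- **the equations of the class kill the norm element** -/
theorem annJW {Z : Submodule B X} (hZ : ∀ v ∈ Z, s.Gv L.r v) :
    ∀ p ∈ s.JW L, ∀ v ∈ Z, (p * NN s c) • v = 0 := fun p hp v hv => by
  rw [mul_smul]
  exact to_JW c hL (hZ _ (Z.smul_mem _ hv)) (fun q hq => by
    rw [← mul_smul]
    exact ann_prod (fun l hl p hp v hv => ann c hL hl (hZ v hv) p hp) q hq v hv) p hp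

omit hL

variable (s) in
/-- gradings by the components at the split primes, on a module `Y` killed by two -/
structure Gr (Y : Submodule B X) {Δ : ℕ → Type*} [∀ l, CommGroup (Δ l)]
    (pj : ∀ l, Δ l → X →+ X) (χ : ∀ l, GQ →* Δ l) : Prop where
  two : ∀ v ∈ Y, (2 : B) • v = 0
  opn : ∀ l, L.Sp l → IsOpen {g | χ l g = 1}
  ord : ∀ l, L.Sp l → orderOf (χ l (L.τ l)) = 2 ^ c.a l
  grp : ∀ l, L.Sp l → ∀ g, ∃ n : ℕ, χ l g ^ 2 ^ n = 1
  oth : ∀ l, L.Sp l → ∀ l' ∈ L.W, l ≠ l' → χ l (L.τ l') = 1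
  dT : ∀ l, L.Sp l → ∀ g, Deg Y (pj l) (s.t g) (χ l g)
  dD : ∀ l, L.Sp l → ∀ g, Deg Y (pj l) (s.d g) (χ l g * χ l g)
  dC : ∀ l, L.Sp l → ∀ o, Deg Y (pj l) (s.ι o) 1
  idm : ∀ l, L.Sp l → ∀ v ∈ Y, pj l 1 (pj l 1 v) = pj l 1 v
  ort : ∀ l, L.Sp l → ∀ δ, δ ≠ 1 → ∀ v ∈ Y, pj l δ (pj l 1 v) = 0
  sum : ∀ l, L.Sp l → ∀ v ∈ Y, ∑ i ∈ range (2 ^ c.a l), pj l (χ l (L.τ l) ^ i) v = v

variable {c} {Y : Submodule B X} {Δ : ℕ → Type*} [∀ l, CommGroup (Δ l)]
  {pj : ∀ l, Δ l → X →+ X} {χ : ∀ l, GQ →* Δ l}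

theorem Gr.g0 (h : Gr s c Y pj χ) (h1 : L.Sp l) {l' : ℕ} (hl : l' ∈ L.W) :
    χ l (L.g0 l') = 1 := by
  obtain ⟨m, hm, e⟩ := (c.wc l' hl).odd.pow _ (h.opn l h1)
  obtain ⟨n, e'⟩ := h.grp l h1 (L.g0 l')
  have := Nat.dvd_gcd (orderOf_dvd_of_pow_eq_one e) (orderOf_dvd_of_pow_eq_one e')
  rwa [((Nat.coprime_two_right.2 hm).pow_right n).gcd_eq_one, Nat.dvd_one, orderOf_eq_one_iff]
    at this

theorem Gr.dy (h : Gr s c Y pj χ) (h1 : L.Sp l) {l' : ℕ} (hl : l' ∈ L.W) (i : Fin 2) :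
    Deg Y (pj l) (y s c l' i) (χ l (L.τ l')) := by
  have a := h.dT l h1 (L.τ l' * L.g0 l')
  rw [map_mul, h.g0 h1 hl, mul_one] at a
  have k : ∀ p q : O, Deg Y (pj l) (s.ι p * s.t (L.τ l' * L.g0 l') + s.ι q * s.t (L.τ l'))
      (χ l (L.τ l')) := fun p q => by
    simpa using ((h.dC l h1 p).mul a).add ((h.dC l h1 q).mul (h.dT l h1 _))
  obtain ⟨e0, e1⟩ := yW_c (L := L) (l := l') (e := c.e l') (u := c.u l') (v := c.v l') s.ι s.t
  fin_cases i
  · show Deg Y (pj l) (yW L l' (c.e l') (c.u l') (c.v l') s.ι s.t 0) _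
    rw [e0]; exact k _ _
  · show Deg Y (pj l) (yW L l' (c.e l') (c.u l') (c.v l') s.ι s.t 1) _
    rw [e1]; exact k _ _

include hL

theorem Gr.dat (h : Gr s c Y pj χ) (hY : ∀ v ∈ Y, s.Gv L.r v) {K : Submodule B X} (hK : K ≤ Y)
    (hs : ∀ l, L.Sp l → ∀ v ∈ K, pj l 1 v ∈ K) :
    Step.Dat K L.W (w s c) (fun l => 2 ^ c.a l) (J s c) (nm s c)
      fun l v => if L.Sp l then pj l 1 v else v := by
  refine ⟨fun _ _ => Nat.one_le_two_pow, fun l hl v hv => ?_,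
    fun l hl p hp v hv => ann c hL hl (hY v (hK hv)) p hp, fun l hl v hv => ?_,
    fun l hl l' hl' e p hp v hv h0 => ?_, fun l hl K' hK' hs' H => ?_⟩
  · rw [w, eq_of_two (h.two v (hK hv)) (sub_one_pow _ _), sub_smul,
      dl_pow c hL hl (hY v (hK hv)), one_smul, sub_self]
  · split_ifs with h1
    exacts [hs l h1 v hv, hv]
  · split_ifs with h1
    swap
    · exact h0
    have o := h.oth l h1 l' hl' e
    have d : Deg Y (pj l) (dl s c l' - 1) 1 := by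
      refine Deg.sub ?_ Deg.one
      simpa [o, dl] using (h.dD l h1 (L.τ l')).mul (h.dC l h1 (c.x l'))
    have y' : l' ∈ L.W → ∀ i, Deg Y (pj l) (y s c l' i - 1) 1 := fun k i =>
      Deg.sub (o ▸ h.dy h1 k i) Deg.one
    refine Deg.ker ?_ 1 (hK hv) h0
    rcases hp with rfl | hp
    · exact d
    rw [J] at hp
    split_ifs at hp with h2 h3
    · rcases hp with rfl | rfl
      exacts [y' h2.1 0, y' h2.1 1]
    · exact hp ▸ y' h3.1 0
    · exact hp ▸ d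
  · have a := c.one_le_a hL (mem_union_left _ hl)
    have k : K' ≤ Y := hK'.trans hK
    by_cases h1 : L.Sp l
    · rw [J, nm, if_pos h1, if_pos h1]
      refine rep_gr h.two (k := 1) a (h.ord l h1) (h.idm l h1) (h.ort l h1) (h.sum l h1)
        (h.dy h1 h1.1 0) (h.dy h1 h1.1 1) (fun v hv => ?_) (fun v hv => ?_)
        (fun v hv b1 b2 => ?_) (fun _ _ => rfl) K' k (fun v hv => by simpa [h1] using hs' v hv) H
      · exact ((rel c hL h1.1 (hY v hv)).split h1.2.1 h1.2.2).2.1.trans (one_smul _ _)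
      · rw [w, sub_smul, sub_smul, pow_one, ((rel c hL h1.1 (hY v hv)).split h1.2.1 h1.2.2).2.2]
      · rw [sub_smul, one_smul, sub_eq_zero] at b1 b2
        exact ⟨b1, b2⟩
    by_cases h2 : L.In l
    · rw [J, nm, if_neg h1, if_neg h1, if_pos h2, if_pos h2]
      obtain ⟨m, -, e⟩ := c.hb l (mem_union_left _ hl)
      refine rep_inert (fun v hv => h.two v (k hv)) (k := m) a (fun v hv => ?_) (fun _ _ => rfl)
        (fun _ _ => rfl) H
      rw [w, sub_smul, sub_smul, ← e, ((rel c hL h2.1 (hY v (k hv))).inert h2.2.1 h2.2.2).2.2]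
    · rw [J, nm, if_neg h1, if_neg h1, if_neg h2, if_neg h2]
      exact rep_inert (fun v hv => h.two v (k hv)) (θ := dl s c l) (b := 0) (k := 1) a
        (fun v hv => by simp [w]) (fun _ _ => rfl) (fun _ _ => rfl) H

/-- **the cut**: freeness over the group of scalars gives freeness over the types -/
theorem Gr.cs (h : Gr s c Y pj χ) (hY : ∀ v ∈ Y, s.Gv L.r v) {K : Submodule B X} (hK : K ≤ Y)
    (hs : ∀ l, L.Sp l → ∀ v ∈ K, pj l 1 v ∈ K)
    (H : Cs K (w s c '' (L.W : Set ℕ)) (∏ l ∈ L.W, w s c l ^ (2 ^ c.a l - 1))) :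
    Cs K (s.JW L) (NN s c) :=
  (multi _ K (h.dat hL hY hK hs) H).congr (fun _ _ h0 => of_JW c h0) fun _ _ => rfl

/-- **the cut of a divisible module is divisible and equal to `NN • Z`** -/
theorem Gr.cut {Z : Submodule B X} {ϖ : B} (h : Gr s c Y pj χ) (hZ : ∀ v ∈ Z, s.Gv L.r v)
    (hY : ∀ v ∈ Y, s.Gv L.r v) (hle : kl Z {ϖ} ≤ Y) (hd : Dv ϖ Z)
    (ht : ∀ v ∈ Z, ∃ k : ℕ, ϖ ^ k • v = 0)
    (hs : ∀ l, L.Sp l → ∀ v ∈ kl Z {ϖ}, pj l 1 v ∈ kl Z {ϖ})
    (H : Cs (kl Z {ϖ}) (w s c '' (L.W : Set ℕ)) (∏ l ∈ L.W, w s c l ^ (2 ^ c.a l - 1))) :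
    Cs Z (s.JW L) (NN s c) ∧ Dv ϖ (kl Z (s.JW L)) :=
  have k := h.cs hL hY hle hs H
  ⟨cut_eq hd ht (annJW c hL hZ) k, cut_dv hd ht (annJW c hL hZ) k⟩

end Cb

end Vale.Agent.P022F.Loc
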