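import Vale.Agent.P022F.Loc.BW
import Vale.Agent.P022F.Loc.Cls
import Vale.Agent.P022D.W.Odd

/-!
# P022F, block W: the type elements as linear combinations of traces
-/

set_option linter.all false

noncomputable section

namespace Vale.Agent.P022F.Loc

open NumberField IsLocalRing
open Vale.Agent.P022 Vale.Agent.P022.H443 Vale.Agent.P022D Vale.Agent.P022D.R Vale.Agent.P022D.W
open Vale.Agent.P027M.S (mx)
open Vale.Agent.P022D.Sel (M2 IsDec)
open Vale.Agent.P022F.Sel (Dh)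

variable {O F : Type} [CommRing O] [Field F]

/-- the two characters at `s`, for a trace function `t` with values in an `O`-algebra -/
def th {B : Type*} [CommRing B] (ι : O →+* B) (t : GQ → B) (g0 s : GQ) (e : Fin 2 → O) (u : O) :
    Fin 2 → B :=
  ![ι u * (t (s * g0) - ι (e 1) * t s), ι u * (ι (e 0) * t s - t (s * g0))]

theorem th_map {B B' : Type*} [CommRing B] [CommRing B'] {ι : O →+* B} {ι' : O →+* B'}
    {t : GQ → B} {t' : GQ → B'} (ψ : B →+* B') (hι : ∀ c, ψ (ι c) = ι' c)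
    (ht : ∀ g, ψ (t g) = t' g) (g0 s : GQ) (e : Fin 2 → O) (u : O) (i : Fin 2) :
    ψ (th ι t g0 s e u i) = th ι' t' g0 s e u i := by
  fin_cases i <;> simp [th, hι, ht]

theorem th_sum {B : Type*} [CommRing B] (ι : O →+* B) (t : GQ → B) (g0 s : GQ) {e : Fin 2 → O}
    {u : O} (hu : u * (e 0 - e 1) = 1) :
    t s = th ι t g0 s e u 0 + th ι t g0 s e u 1 ∧
      t (s * g0) = ι (e 0) * th ι t g0 s e u 0 + ι (e 1) * th ι t g0 s e u 1 := by
  have := congrArg ι hu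
  rw [map_mul, map_sub, map_one] at this
  simp only [th, Matrix.cons_val_zero, Matrix.cons_val_one, Matrix.cons_val_fin_one]
  exact ⟨by linear_combination (-t s) * this, by linear_combination (-t (s * g0)) * this⟩

/-- the constants at a regular prime: `g0` is pro-odd with eigenvalues `e`, and, if `τ ∈ H`,
`v i` is the inverse of the character `i` of the point at `τ` -/
structure Wc (S : Dat O F) (L : Pl O) (l : ℕ) (e : Fin 2 → O) (u : O) (v : Fin 2 → O) : Prop where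
  odd : ProOdd (L.g0 l)
  tm : W.Tm S.red (L.rb S l) (L.g0 l) e
  inv : u * (e 0 - e 1) = 1
  chi : L.τ l ∈ L.Hl l → ∀ i,
    v i * th (RingHom.id O) (fun g => (L.r g).trace) (L.g0 l) (L.τ l) e u i = 1

/-- the type elements -/
def yW {B : Type*} [CommRing B] (L : Pl O) (l : ℕ) (e : Fin 2 → O) (u : O) (v : Fin 2 → O)
    (ι : O →+* B) (t : GQ → B) (i : Fin 2) : B :=
  ι (v i) * th ι t (L.g0 l) (L.τ l) e u i

theorem yW_map {B B' : Type*} [CommRing B] [CommRing B'] {ι : O →+* B} {ι' : O →+* B'}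
    {t : GQ → B} {t' : GQ → B'} (ψ : B →+* B') (hι : ∀ c, ψ (ι c) = ι' c)
    (ht : ∀ g, ψ (t g) = t' g) (L : Pl O) (l : ℕ) (e : Fin 2 → O) (u : O) (v : Fin 2 → O)
    (i : Fin 2) : ψ (yW L l e u v ι t i) = yW L l e u v ι' t' i := by
  rw [yW, yW, map_mul, hι, th_map ψ hι ht]

variable {S : Dat O F} {L : Pl O} {l : ℕ} {e v : Fin 2 → O} {u : O}

/-- **after the cut the traces are those of the point** -/
theorem Wc.cut (h : Wc S L l e u v) (hτ : L.τ l ∈ L.Hl l) {B X : Type*} [CommRing B] [AddCommGroup X]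
    [Module B X] (ι : O →+* B) (t : GQ → B) {w : X} (hw : ∀ i, yW L l e u v ι t i • w = w) :
    t (L.τ l) • w = ι (L.r (L.τ l)).trace • w ∧
      t (L.τ l * L.g0 l) • w = ι (L.r (L.τ l * L.g0 l)).trace • w := by
  have k : ∀ i, th ι t (L.g0 l) (L.τ l) e u i • w =
      ι (th (RingHom.id O) (fun g => (L.r g).trace) (L.g0 l) (L.τ l) e u i) • w := fun i => by
    conv_rhs => rw [← hw i, ← mul_smul, yW, ← mul_assoc, ← map_mul, mul_comm _ (v i), h.chi hτ,
      map_one, one_mul]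
  obtain ⟨a1, a2⟩ := th_sum ι t (L.g0 l) (L.τ l) h.inv
  obtain ⟨b1, b2⟩ := th_sum (RingHom.id O) (fun g => (L.r g).trace) (L.g0 l) (L.τ l) h.inv
  simp only [RingHom.id_apply] at b1 b2
  refine ⟨by rw [a1, b1, map_add, add_smul, add_smul, k, k], ?_⟩
  rw [a2, b2, map_add, map_mul, map_mul, add_smul, add_smul, mul_smul, mul_smul, mul_smul,
    mul_smul, k, k]

theorem open_of {Γ Γ' : Type*} [Monoid Γ] [Monoid Γ'] {f : GQ →* Γ} {f' : GQ →* Γ'}
    (h : ∀ g, f g = 1 → f' g = 1) (ho : IsOpen {g : GQ | f g = 1}) :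
    IsOpen {g : GQ | f' g = 1} := by
  have := galQb
  have h1 := Subgroup.isOpen_mono (H₁ := kr f) (H₂ := kr f')
    (fun g hg => (mem_kr _ _).2 (h g ((mem_kr _ _).1 hg))) (kr_open ho)
  have e : (kr f' : Set GQ) = {g : GQ | f' g = 1} := Set.ext (mem_kr f')
  rwa [e] at h1

/-- a lift over a local `O`-algebra with nilpotent maximal ideal -/
structure Tst (S : Dat O F) {A : Type} [CommRing A] (ι : O →+* A) (π : A →+* F)
    (ρ : GQ →* M2 A) : Prop where
  lr : LR π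
  alg : ∀ c, π (ι c) = S.red c
  res : ∀ g, (ρ g).map π = mx S.rb g
  opn : IsOpen {g | ρ g = 1}

variable {A : Type} [CommRing A] {ι : O →+* A} {π : A →+* F} {ρ : GQ →* M2 A}

theorem Obj.tst (X : Obj S A) : Tst S X.ι X.π X.ρ := ⟨Obj.lrr X, X.alg, X.res, X.opn⟩

/-- the point over `A` -/
def rA (L : Pl O) (ι : O →+* A) : GQ →* M2 A := ι.mapMatrix.toMonoidHom.comp L.r

theorem rA_tr (g : GQ) : trc (rA L ι) g = ι (L.r g).trace :=
  trc_map ι (ρ := L.r) (fun _ => rfl) g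

theorem rA_dt (g : GQ) : dtm (rA L ι) g = ι (L.r g).det :=
  dtm_map ι (ρ := L.r) (fun _ => rfl) g

theorem tst_pt [IsLocalRing O] (hL : L.Ok S) (hA : LR π) (alg : ∀ c, π (ι c) = S.red c) :
    Tst S ι π (rA L ι) := by
  refine ⟨hA, alg, fun g => ?_, ?_⟩
  · rw [← hL.lift]; ext i j; exact alg _
  · obtain ⟨n, hn⟩ := hA.nil
    have hk : maximalIdeal O ^ n ≤ RingHom.ker ι := by
      have h1 : (maximalIdeal O).map ι ≤ RingHom.ker π := Ideal.map_le_iff_le_comap.2 fun c hc => by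
        rw [Ideal.mem_comap, RingHom.mem_ker, alg]; exact (hL.ker c).2 hc
      have h2 := Ideal.pow_right_mono h1 n
      rw [hn, ← Ideal.map_pow] at h2
      exact Ideal.map_le_iff_le_comap.1 h2
    refine open_of (f := (Ideal.Quotient.mk (maximalIdeal O ^ n)).mapMatrix.toMonoidHom.comp L.r)
      (fun g hg => ?_) (hL.cont n)
    ext i j
    have h1 : Ideal.Quotient.mk (maximalIdeal O ^ n) (L.r g i j) =
        Ideal.Quotient.mk (maximalIdeal O ^ n) ((1 : M2 O) i j) := by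
      refine (congrFun (congrFun hg i) j).trans ?_
      simp only [Matrix.one_apply]; split_ifs <;> simp
    have h2 := hk (Ideal.Quotient.eq.1 h1)
    rw [RingHom.mem_ker, map_sub, sub_eq_zero] at h2
    refine h2.trans ?_
    simp only [Matrix.one_apply]; split_ifs <;> simp

theorem Tst.pr [IsLocalRing O] [CharP F 2] (hL : L.Ok S) (hl : l ∈ L.W) (h : Tst S ι π ρ) :
    IsOpen {g | (ρ.prod (rA L ι)) g = 1} ∧ ∃ (N : Subgroup (dec (L.P l)))
      (h1 : L.τ l ∈ dec (L.P l)) (h2 : L.φ l ∈ dec (L.P l)),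
      Pr π l ⊤ ((inP (L.P l)).subgroupOf (dec (L.P l))) N (L.Hd l) ⟨L.τ l, h1⟩ ⟨L.φ l, h2⟩
        ⟨L.g0 l, (hL.reg l hl).1⟩ (L.rr S l) (L.rs l ι ρ) (L.rs l ι (rA L ι)) := by
  have h' := tst_pt hL h.lr h.alg
  have ho : IsOpen {g | (ρ.prod (rA L ι)) g = 1} := by
    convert h.opn.inter h'.opn using 1
    exact Set.ext fun g => Prod.ext_iff
  obtain ⟨N, hT⟩ := (hL.tm l (Finset.mem_union_left _ hl)).tame _ _ ho
  exact ⟨ho, _, _, _, hL.wd hl, h.lr, L.rs_lift l h.alg h.res, L.rs_lift l h.alg h'.res,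
    tame_rs ι hT⟩

theorem th_dd {G : Type} [Group G] (j : G →* GQ) {N D I H : Subgroup G} {τ φ g0 : G}
    {rb : G →* Mt F} {σ : G →* Mt A} {t : GQ → A} (ht : ∀ g, trc σ g = t (j g))
    (hW : WD l D H g0 rb) (hA : LR π) (hρ : Lift π rb σ) (hT : TameAt l D I N τ φ σ)
    (he : W.Tm π rb g0 fun i => ι (e i)) (hu : u * (e 0 - e 1) = 1)
    (ho : ∃ m, Odd m ∧ σ g0 ^ m = 1) {s : G} (hs : s ∈ D) (hsH : s ∈ H) (i : Fin 2) :
    th ι t (j g0) (j s) e u i = dd π (rb g0 0 0) g0 (trc σ) (dtm σ) i s := by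
  obtain ⟨a1, -, a3⟩ := (dd_lin hW hA hρ hT he ho hs).2.1 hsH
  have c : t (j s * j g0) = trc σ (g0 * s) := by
    rw [← map_mul, ← ht]
    simp only [trc, map_mul]; exact Matrix.trace_mul_comm _ _
  have := congrArg ι hu
  rw [map_mul, map_sub, map_one] at this
  fin_cases i
  · show ι u * (t (j s * j g0) - ι (e 1) * t (j s)) = dd π _ g0 (trc σ) (dtm σ) 0 s
    rw [c, ← ht, a3, a1]
    linear_combination (dd π (rb g0 0 0) g0 (trc σ) (dtm σ) 0 s) * this
  · show ι u * (ι (e 0) * t (j s) - t (j s * j g0)) = dd π _ g0 (trc σ) (dtm σ) 1 s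
    rw [c, ← ht, a3, a1]
    linear_combination (dd π (rb g0 0 0) g0 (trc σ) (dtm σ) 1 s) * this

/-- **the relations in every test ring** -/
theorem Wc.ring [IsLocalRing O] [CharP F 2] (hc : Wc S L l e u v) (hL : L.Ok S) (hl : l ∈ L.W)
    (h : Tst S ι π ρ) :
    ((ρ (L.g0 l)).trace = ι (L.r (L.g0 l)).trace ∧ (ρ (L.g0 l)).det = ι (L.r (L.g0 l)).det) ∧
    (L.τ l ∉ L.Hl l → (ρ (L.τ l)).trace = ι (L.r (L.τ l)).trace ∧
      (ρ (L.τ l * L.g0 l)).trace = ι (L.r (L.τ l * L.g0 l)).trace) ∧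
    (L.τ l ∈ L.Hl l → ∀ y : Fin 2 → A, y = yW L l e u v ι (fun g => (ρ g).trace) →
      (∀ i, π (y i) = 1) ∧ (ρ (L.τ l)).det = y 0 * y 1 * ι (L.r (L.τ l)).det ∧
      (L.φ l ∈ L.Hl l → ∀ a m, Odd m → l = 2 ^ a * m + 1 → ∀ i, y i ^ 2 ^ a = 1) ∧
      (L.φ l ∉ L.Hl l → y 1 = y 0 ^ l ∧
        ∀ c m, Odd m → l ^ 2 = 2 ^ c * m + 1 → y 0 ^ 2 ^ c = 1)) := by
  obtain ⟨ho, N, m1, m2, hP⟩ := h.pr hL hl
  set g0 : dec (L.P l) := ⟨L.g0 l, (hL.reg l hl).1⟩ with hg0
  set τ : dec (L.P l) := ⟨L.τ l, m1⟩ with hτ0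
  have he : W.Tm π (L.rr S l) g0 fun i => ι (e i) := by
    obtain ⟨m, hm, k⟩ := hc.tm
    exact ⟨m, hm, fun i => ⟨by rw [← map_pow, (k i).1, map_one], by rw [h.alg, (k i).2]; rfl⟩⟩
  have o := hc.odd.pow _ ho
  have oo : ∀ {σ : GQ →* M2 A} {m : ℕ}, σ (L.g0 l) ^ m = 1 → L.rs l ι σ g0 ^ m = 1 := by
    intro σ m hm
    show L.ch l ι (σ (L.g0 l)) ^ m = 1
    rw [← map_pow, hm, map_one]
  have o1 : ∃ m, Odd m ∧ L.rs l ι ρ g0 ^ m = 1 :=
    o.imp fun m hm => ⟨hm.1, oo (congrArg Prod.fst hm.2)⟩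
  have o2 : ∃ m, Odd m ∧ L.rs l ι (rA L ι) g0 ^ m = 1 :=
    o.imp fun m hm => ⟨hm.1, oo (congrArg Prod.snd hm.2)⟩
  have T1 := hP.T.comp (MonoidHom.fst _ _)
  have T2 := hP.T.comp (MonoidHom.snd _ _)
  have hD := hP.T.ID hP.T.tau
  have t1 := L.rs_tr l ι ρ
  have d1 := L.rs_dt l ι ρ
  have t2 : ∀ g : dec (L.P l), trc (L.rs l ι (rA L ι)) g = ι (L.r g).trace := fun g =>
    (L.rs_tr l ι _ g).trans (rA_tr _)
  have d2 : ∀ g : dec (L.P l), dtm (L.rs l ι (rA L ι)) g = ι (L.r g).det := fun g =>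
    (L.rs_dt l ι _ g).trans (rA_dt _)
  have k0 : ∀ {σ : dec (L.P l) →* M2 A}, Lift π (L.rr S l) σ →
      TameAt l ⊤ ((inP (L.P l)).subgroupOf (dec (L.P l))) N τ ⟨L.φ l, m2⟩ σ →
      (∃ m, Odd m ∧ σ g0 ^ m = 1) →
      trc σ g0 = ι (e 0) + ι (e 1) ∧ dtm σ g0 = ι (e 0) * ι (e 1) := by
    intro σ hσ hT o
    obtain ⟨P, Q, h1, h2, hP', hM⟩ := exists_mon hP.W hP.A hσ hT
    have eg := hM.eig hP.W hP.A (hσ.cj h1 h2 hP') he (o.imp fun m hm => ⟨hm.1, by
      rw [MonoidHom.comp_apply, ← map_pow, hm.2, map_one]⟩)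
    rw [← trc_cj σ P Q h1 h2, ← dtm_cj σ P Q h1 h2]
    simp only [trc, dtm, Matrix.trace_fin_two, Matrix.det_fin_two, eg,
      hM.off _ hP.W.g0D hP.W.g0H 0 1 (by decide), zero_mul, sub_zero, and_self]
  refine ⟨?_, fun hτ => ?_, fun hτ y hy => ?_⟩
  · exact ⟨(t1 g0).symm.trans ((k0 hP.l1 T1 o1).1.trans ((k0 hP.l2 T2 o2).1.symm.trans (t2 g0))),
      (d1 g0).symm.trans ((k0 hP.l1 T1 o1).2.trans ((k0 hP.l2 T2 o2).2.symm.trans (d2 g0)))⟩
  · obtain ⟨a1, a2⟩ := (dd_lin hP.W hP.A hP.l1 T1 he o1 hD).2.2 hτ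
    obtain ⟨b1, b2⟩ := (dd_lin hP.W hP.A hP.l2 T2 he o2 hD).2.2 hτ
    refine ⟨(t1 τ).symm.trans (a1.trans (b1.symm.trans (t2 τ))), ?_⟩
    have c : ∀ σ : dec (L.P l) →* M2 A, trc σ (τ * g0) = trc σ (g0 * τ) := fun σ => by
      simp only [trc, map_mul]; exact Matrix.trace_mul_comm _ _
    exact (t1 (τ * g0)).symm.trans ((c _).trans (a2.trans (b2.symm.trans
      ((c _).symm.trans (t2 (τ * g0))))))
  · have k : y = yy π (L.rr S l g0 0 0) g0 τ (trc (L.rs l ι ρ)) (dtm (L.rs l ι ρ))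
        (trc (L.rs l ι (rA L ι))) (dtm (L.rs l ι (rA L ι))) := by
      funext i
      have c := congrArg ι (hc.chi hτ i)
      have q2 := th_dd (dec (L.P l)).subtype (t := fun g => ι (L.r g).trace) t2 hP.W hP.A hP.l2 T2
        he hc.inv o2 hD hτ i
      have q1 := th_dd (dec (L.P l)).subtype (t := fun g => (ρ g).trace) t1 hP.W hP.A hP.l1 T1
        he hc.inv o1 hD hτ i
      rw [map_mul, map_one, th_map ι (ι' := ι) (t' := fun g => ι (L.r g).trace) (fun _ => rfl)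
        (fun g => rfl)] at c
      erw [q2] at c
      rw [hy, yy]
      erw [← q1]
      rw [yW, mul_comm]
      congr 1
      have hu := IsUnit.of_mul_eq_one_right _ c
      apply hu.mul_right_cancel
      rw [c]
      exact (Ring.inverse_mul_cancel _ hu).symm
    obtain ⟨p1, p2, -, p4, p5⟩ := hP.unr hτ y k
    rw [d1, d2] at p2
    exact ⟨p1, p2, p4, p5⟩

/-- **existence of the constants**, after a change of the regular elements -/
theorem exists_wc [IsLocalRing O] [IsAdicComplete (maximalIdeal O) O] [CharP F 2] (hL : L.Ok S) :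
    ∃ (g1 : ℕ → GQ) (a : ℕ → O) (e : ℕ → Fin 2 → O) (u : ℕ → O) (v : ℕ → Fin 2 → O),
      Pl.Ok { L with g0 := g1, a := a } S ∧
      ∀ l ∈ L.W, Wc S { L with g0 := g1, a := a } l (e l) (u l) (v l) := by
  have hk : RingHom.ker S.red = maximalIdeal O := Ideal.ext fun c => hL.ker c
  have loc : ∀ a : O, S.red a ≠ 0 → IsUnit a := fun a ha => by
    by_contra hn
    exact ha ((hL.ker a).2 hn)
  haveI : HenselianRing O (RingHom.ker S.red) := by rw [hk]; infer_instance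
  have key : ∀ l ∈ L.W, ∃ (g1 : GQ) (e : Fin 2 → O) (u : O) (v : Fin 2 → O),
      (g1 ∈ dec (L.P l) ∧ g1 ∈ L.Hl l ∧ L.rb S l g1 0 0 ≠ L.rb S l g1 1 1) ∧ ProOdd g1 ∧
      W.Tm S.red (L.rb S l) g1 e ∧ u * (e 0 - e 1) = 1 ∧ (L.τ l ∈ L.Hl l → ∀ i,
        v i * th (RingHom.id O) (fun g => (L.r g).trace) g1 (L.τ l) e u i = 1) := by
    intro l hl
    have ho : IsOpen {g : GQ | L.rb S l g = 1} :=
      open_of (f := S.rb) (fun g hg => by
        rw [Pl.rb_apply, show mx S.rb g = 1 from congrArg Units.val hg, mul_one, L.cu_mul])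
        hL.dh.opn
    obtain ⟨r1, r2, r3⟩ := hL.reg l hl
    obtain ⟨h01, h10⟩ := hL.dg l hl _ r2
    obtain ⟨m, hm, em⟩ := odd_order CharTwo.two_eq_zero ho h01 h10
    obtain ⟨g1, hg, e1, hp⟩ := exists_proOdd (L.rb S l) ho (dec (L.P l)) (isClosed_dec _) r1 hm em
    have hH : g1 ∈ L.Hl l := ((hL.wd hl).mem_iff (g := ⟨g1, hg⟩)).2 (by
      show L.rb S l g1 0 1 = 0
      rw [e1, h01])
    have hne : L.rb S l g1 0 0 ≠ L.rb S l g1 1 1 := by rw [e1]; exact r3
    have hW := hL.wd' hl hg hH hne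
    obtain ⟨k01, k10⟩ := hL.dg l hl _ hH
    have h1 : ∀ i, L.rb S l g1 i i ^ m = 1 := fun i => by
      have key : ∀ n : ℕ, (L.rb S l g1 ^ n) i i = L.rb S l g1 i i ^ n := by
        intro n
        induction n with
        | zero => simp
        | succ n ih =>
          rw [pow_succ', pow_succ', ← ih]
          fin_cases i <;> simp [Matrix.mul_apply, Fin.sum_univ_two, k01, k10]
      rw [← key, e1, em, Matrix.one_apply_eq]
    choose e he using fun i => exists_teich S.red S.surj loc hW.two hm (h1 i)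
    obtain ⟨u, hu⟩ := (loc (e 0 - e 1) (by
      rw [map_sub, (he 0).2, (he 1).2, sub_ne_zero]; exact hne)).exists_left_inv
    have hv : ∀ i, ∃ v : O, L.τ l ∈ L.Hl l →
        v * th (RingHom.id O) (fun g => (L.r g).trace) g1 (L.τ l) e u i = 1 := by
      intro i
      by_cases hτ : L.τ l ∈ L.Hl l
      · refine (loc _ ?_).exists_left_inv.imp fun v hv _ => hv
        rw [th_map S.red (ι := RingHom.id O) (t := fun g => (L.r g).trace) (ι' := S.red)
          (t' := trc (L.rb S l)) (fun _ => rfl) (fun g =>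
            (trc_map S.red (ρ := L.r) (ρ' := rbm S) hL.lift g).symm.trans (L.rb_tr l g).symm)]
        have c := congrArg S.red hu
        rw [map_mul, map_sub, map_one, (he 0).2, (he 1).2] at c
        have e0 : th S.red (trc (L.rb S l)) g1 (L.τ l) e u i = L.rb S l (L.τ l) i i := by
          fin_cases i <;>
            simp only [th, trc, map_mul, Matrix.trace_fin_two, Matrix.mul_apply, Fin.sum_univ_two,
              (he 0).2, (he 1).2, k01, k10, Fin.zero_eta,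
              Fin.mk_one, Matrix.cons_val_zero, Matrix.cons_val_one, Matrix.cons_val_fin_one]
          · linear_combination (L.rb S l (L.τ l) 0 0) * c
          · linear_combination (L.rb S l (L.τ l) 1 1) * c
        rw [e0]
        obtain ⟨N, hT⟩ := (hL.tm l (Finset.mem_union_left _ hl)).tame _ _ ho
        exact hW.dne i (g := ⟨L.τ l, hT.ID hT.tau⟩) hτ
      · exact ⟨0, fun h => absurd h hτ⟩
    choose v hv using hv
    exact ⟨g1, e, u, v, ⟨hg, hH, hne⟩, hp, ⟨m, hm, he⟩, hu, fun h i => hv i h⟩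
  choose! g1 e u v h1 h2 h3 h4 h5 using key
  obtain ⟨a, ha⟩ := setG hL g1 h1
  exact ⟨g1, a, e, u, v, ha, fun l hl => ⟨h2 l hl, h3 l hl, h4 l hl, h5 l hl⟩⟩

end Vale.Agent.P022F.Loc
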