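import Vale.Agent.P022D.Gma.Rep
import Vale.Agent.P022D.W.Odd

/-!
P022F: a trace function on a tame local group that is residually a sum of two different
characters is the trace of a diagonal representation.
-/

set_option linter.all false

noncomputable section

namespace Vale.Agent.P022F.Lg

open Vale.Agent.P022.H346 Vale.Agent.P022D.Gma Vale.Agent.P022D.W

section gm

variable {G B : Type} [Group G] [CommRing B]

/-- the second diagonal entry -/
def en2 (t : G → B) (g₀ : G) (β u : B) (g : G) : B := t g - ent t g₀ β u g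

/-- the products of off-diagonal entries -/
def xx (t : G → B) (g₀ : G) (β u : B) (g h : G) : B :=
  ent t g₀ β u (g * h) - ent t g₀ β u g * ent t g₀ β u h

/-- the rules of a generalised matrix algebra -/
structure GM (t : G → B) (d : G →* Bˣ) (a b : G → B) (x : G → G → B) : Prop where
  sum : ∀ g, a g + b g = t g
  a1 : a 1 = 1
  b1 : b 1 = 1
  am : ∀ g h, a (g * h) = a g * a h + x g h
  bm : ∀ g h, b (g * h) = b g * b h + x h g
  cl : ∀ g g' h, x (g * g') h = a g * x g' h + b g' * x g h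
  cr : ∀ g h h', x g (h * h') = a h' * x g h + b h * x g h'
  det : ∀ g, a g * b g - x g g = d g
  sw : ∀ g h g' h', x g h * x g' h' = x g h' * x g' h

theorem gm {t : G → B} {d : G →* Bˣ} (T : TF t d) (g₀ : G) {α β u : B}
    (hs : α + β = t g₀) (hp : α * β = d g₀) (hu : (α - β) * u = 1) :
    GM t d (ent t g₀ β u) (en2 t g₀ β u) (xx t g₀ β u) ∧ ent t g₀ β u g₀ = α ∧
      en2 t g₀ β u g₀ = β ∧ (∀ h, xx t g₀ β u g₀ h = 0) ∧ ∀ g, xx t g₀ β u g g₀ = 0 := by
  obtain ⟨A, _, _, L, π, h, hL, hπ⟩ := exists_ch T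
  set e : A := u • (π g₀ - β • 1) with he
  have sq : ∀ g, π g * π g = t g • π g - (d g : B) • 1 := fun g => by
    have := congrArg (π g * ·) (hπ g)
    simp only [mul_add, mul_smul_comm, ← map_mul π g g⁻¹, mul_inv_cancel, map_one,
      mul_one] at this
    rw [← this, add_sub_cancel_right]
  have hg : π g₀ * π g₀ = (α + β) • π g₀ - (α * β) • 1 := by rw [hs, hp, sq]
  have hge : π g₀ * e = α • e := by
    rw [he, mul_smul_comm, mul_sub, hg, mul_smul_comm, mul_one, smul_comm α u]
    congr 1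
    module
  have hgg : π g₀ = (α - β) • e + β • 1 := by
    rw [he, smul_smul, hu, one_smul, sub_add_cancel]
  have hee : e * e = e := by
    conv_lhs => rw [he, smul_mul_assoc, sub_mul, ← he, hge, smul_mul_assoc, one_mul, ← sub_smul,
      smul_smul, mul_comm u, hu, one_smul]
  have hx : ∀ g, L (π g * e) = ent t g₀ β u g := by
    intro g
    rw [he, mul_smul_comm, mul_sub, mul_smul_comm, mul_one, ← map_mul, map_smul, map_sub, map_smul,
      hL, hL, ent, smul_eq_mul, smul_eq_mul, mul_comm]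
  have h1 : L e = 1 := by
    have := hx 1
    rw [map_one, one_mul, ent, one_mul, T.one, ← hs] at this
    rw [this]
    linear_combination hu
  clear_value e
  obtain ⟨f, hf⟩ : ∃ f : A, f = 1 - e := ⟨_, rfl⟩
  have ef1 : e + f = 1 := by rw [hf, add_sub_cancel]
  have hff : f * f = f := by
    rw [hf, sub_mul, one_mul, mul_sub, mul_one, hee, sub_self, sub_zero]
  have h2 : L f = 1 := by
    rw [hf, map_sub, h.one, h1]; ring
  have ef : e * f = 0 := by rw [hf, mul_sub, mul_one, hee, sub_self]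
  have fe : f * e = 0 := by rw [hf, sub_mul, one_mul, hee, sub_self]
  have se : ∀ y, e * y * e = L (y * e) • e := h.sand hee h1
  have sf : ∀ y, f * y * f = L (y * f) • f := h.sand hff h2
  have sp : ∀ y z : A, L (y * z) = L (y * e * z) + L (y * f * z) := fun y z => by
    rw [← map_add, ← add_mul, ← mul_add, ef1, mul_one]
  have hy : ∀ g, L (π g * f) = en2 t g₀ β u g := fun g => by
    rw [hf, mul_sub, mul_one, map_sub, hL, hx, en2]
  have kE : ∀ y z : A, L (y * e * (z * e)) = L (y * e) * L (z * e) := fun y z => by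
    rw [show y * e * (z * e) = y * (e * z * e) by simp only [mul_assoc], se, mul_smul_comm,
      map_smul, smul_eq_mul, mul_comm]
  have kF : ∀ y z : A, L (y * f * (z * f)) = L (y * f) * L (z * f) := fun y z => by
    rw [show y * f * (z * f) = y * (f * z * f) by simp only [mul_assoc], sf, mul_smul_comm,
      map_smul, smul_eq_mul, mul_comm]
  have hz : ∀ g k, L (π g * f * (π k * e)) = xx t g₀ β u g k := fun g k => by
    have := sp (π g) (π k * e)
    rw [kE, ← mul_assoc, ← map_mul π, hx, hx, hx] at this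
    rw [xx, this, add_sub_cancel_left]
  have a0 : ent t g₀ β u g₀ = α := by rw [← hx, hge, map_smul, h1, smul_eq_mul, mul_one]
  refine ⟨⟨fun g => by rw [en2, add_sub_cancel], ?_, ?_, fun g k => by rw [xx, add_sub_cancel],
    fun g k => ?_, fun g g' k => ?_, fun g k k' => ?_, fun g => ?_, fun g k g' k' => ?_⟩, a0,
    by rw [en2, a0, ← hs, add_sub_cancel_left], fun k => ?_, fun g => ?_⟩
  · rw [← hx, map_one, one_mul, h1]
  · rw [← hy, map_one, one_mul, h2]
  · rw [← hy, ← hy, ← hy, ← hz, map_mul π, mul_assoc, sp, kF, add_comm, h.comm (π g * e)]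
  · rw [← hz, ← hz, ← hz, ← hx, ← hy, map_mul π, mul_assoc, mul_assoc, sp,
      show π g * e * (π g' * (f * (π k * e))) = π g * e * (π g' * f * π k * e) by
        simp only [mul_assoc], kE,
      show π g * f * (π g' * (f * (π k * e))) = π g * (f * π g' * f) * (π k * e) by
        simp only [mul_assoc], sf, mul_smul_comm, smul_mul_assoc, map_smul, smul_eq_mul]
    simp only [mul_assoc]
  · rw [← hz, ← hz, ← hz, ← hx, ← hy, map_mul π,
      show π g * f * (π k * π k' * e) = π g * f * π k * (π k' * e) by simp only [mul_assoc], sp,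
      kE, show π g * f * π k * f * (π k' * e) = π g * (f * π k * f) * (π k' * e) by
        simp only [mul_assoc], sf, mul_smul_comm, smul_mul_assoc, map_smul, smul_eq_mul,
      mul_comm (L (π k' * e))]
    simp only [mul_assoc]
  · have := congrArg (fun y => L (y * e)) (sq g)
    simp only [sub_mul, smul_mul_assoc, one_mul, map_sub, map_smul, smul_eq_mul, h1] at this
    rw [← map_mul π, hx, hx] at this
    rw [xx, en2, this]
    ring
  · rw [← hz, ← hz, ← hz, ← hz]
    have k1 : ∀ y z y' z' : A, L (y * f * (z * e)) * L (y' * f * (z' * e)) =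
        L (y * f * (z * e) * (y' * f * (z' * e))) := fun y z y' z' => by
      rw [← mul_assoc (y * f), ← mul_assoc (y' * f), kE]
    have k2 : ∀ y z y' z' : A, L (y * f * (z * e) * (y' * f * (z' * e))) =
        L (z * e * y' * f) * L (z' * e * y * f) := fun y z y' z' => by
      rw [← kF, show y * f * (z * e) * (y' * f * (z' * e)) = y * f * (z * e * y' * f * (z' * e)) by
        simp only [mul_assoc], h.comm (y * f)]
      simp only [mul_assoc]
    rw [k1, k2, h.comm (π g * f), h.comm (π g' * f), mul_comm]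
    simp only [mul_assoc]
  · rw [← hz, hgg, add_mul, add_mul, smul_mul_assoc, ef, smul_zero, zero_mul, zero_add,
      smul_mul_assoc, smul_mul_assoc, one_mul, map_smul, h.comm f, mul_assoc, ef, mul_zero,
      map_zero, smul_zero]
  · rw [← hz, hge, mul_smul_comm, mul_assoc, fe, mul_zero, smul_zero, map_zero]

section inv

variable {t : G → B} {g₀ : G} {β u : B} {s s' : G}

theorem ent_congr (h : ∀ y, t (s * y) = t (s' * y)) : ent t g₀ β u s = ent t g₀ β u s' := by
  have := h 1
  rw [mul_one, mul_one] at this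
  rw [ent, ent, h, this]

theorem en2_congr (h : ∀ y, t (s * y) = t (s' * y)) : en2 t g₀ β u s = en2 t g₀ β u s' := by
  have := h 1
  rw [mul_one, mul_one] at this
  rw [en2, en2, ent_congr h, this]

theorem xx_congr_left (h : ∀ y, t (s * y) = t (s' * y)) (k : G) :
    xx t g₀ β u s k = xx t g₀ β u s' k := by
  rw [xx, xx, ent_congr h, ent_congr (s := s * k) (s' := s' * k) fun y => by
    rw [mul_assoc, mul_assoc, h]]

theorem xx_congr_right (h : ∀ z y, t (z * s * y) = t (z * s' * y)) (k : G) :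
    xx t g₀ β u k s = xx t g₀ β u k s' := by
  rw [xx, xx, ent_congr (h k), ent_congr (s := s) (s' := s') fun y => by
    simpa only [one_mul] using h 1 y]

end inv

theorem GM.x1 {t : G → B} {d : G →* Bˣ} {a b : G → B} {x : G → G → B} (h : GM t d a b x) (g : G) :
    x 1 g = 0 ∧ x g 1 = 0 := by
  have h1 := h.am 1 g
  have h2 := h.am g 1
  rw [one_mul, h.a1, one_mul] at h1
  rw [mul_one, h.a1, mul_one] at h2
  exact ⟨by linear_combination -h1, by linear_combination -h2⟩

end gm

variable {G A F Γ : Type} [Group G] [CommRing A] [Field F] [Monoid Γ] {π : A →+* F} {ℓ : ℕ}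
  {D I N H : Subgroup G} {τ φ g0 : G} {rb : G →* Mt F} {f : G →* Γ}

theorem tame_of {Γ' : Type} [Monoid Γ'] (h : TameAt ℓ D I N τ φ f) {f' : G →* Γ'}
    (e : ∀ g k, f g = f k → f' g = f' k) : TameAt ℓ D I N τ φ f' := by
  refine ⟨h.ID, h.NI, h.tau, h.phi, h.cjI, h.cjN, fun p hp => ?_, h.cyc, h.rel, fun g hg => ?_⟩
  · obtain ⟨m, hm, k⟩ := h.odd p hp
    exact ⟨m, hm, by
      rw [← map_pow, e (p ^ m) 1 (by rw [map_pow, k, map_one]), map_one]⟩
  · obtain ⟨k, s, hs, q⟩ := h.gen g hg
    exact ⟨k, s, hs, e _ _ q⟩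

theorem step (hW : WD ℓ D H g0 rb) (hA : LR π) (hT : TameAt ℓ D I N τ φ f) (hH : ∀ g, g ∈ H)
    {a b β : G → A} (ha : ∀ g, π (a g) = rb g 0 0) (hb : ∀ g, π (b g) = rb g 1 1)
    (hc : ∀ g k, β (g * k) = a g * β k + b k * β g) (h1 : β 1 = 0) (h0 : β g0 = 0)
    (hf : ∀ g k, f g = f k → rb g = rb k ∧ β g = β k) (J : Ideal A) (hJ : ∀ g, β g ∈ J) :
    ∀ g ∈ D, β g ∈ RingHom.ker π * J := by
  set J' := RingHom.ker π * J with hJ'
  have hm : ∀ {x y : A}, π x = 0 → y ∈ J → x * y ∈ J' := fun hx hy => Ideal.mul_mem_mul hx hy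
  have hu : IsUnit (a g0 - b g0) := hA.loc _ (by
    rw [map_sub, ha, hb, sub_ne_zero]; exact hW.ne)
  have hadd : ∀ g k, rb g = 1 → rb k = 1 → β (g * k) - (β g + β k) ∈ J' := by
    intro g k eg ek
    have e : β (g * k) - (β g + β k) = (a g - 1) * β k + (b k - 1) * β g := by
      rw [hc]; ring
    rw [e]
    refine J'.add_mem (hm ?_ (hJ k)) (hm ?_ (hJ g))
    · rw [map_sub, ha, eg]; simp
    · rw [map_sub, hb, ek]; simp
  have hpow : ∀ g, rb g = 1 → ∀ n : ℕ, β (g ^ n) - n * β g ∈ J' := by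
    intro g eg n
    induction n with
    | zero => simp [h1]
    | succ n ih =>
      have := J'.add_mem (hadd (g ^ n) g (by rw [map_pow, eg, one_pow]) eg) ih
      rw [pow_succ]
      convert this using 1
      push_cast; ring
  have hodd : ∀ g, rb g = 1 → ∀ n : ℕ, Odd n → β (g ^ n) - β g ∈ J' := by
    rintro g eg _ ⟨n, rfl⟩
    have h2 : (2 * n : A) * β g ∈ J' :=
      hm (by rw [map_mul, map_ofNat, hW.two, zero_mul]) (hJ g)
    have := J'.add_mem (hpow g eg (2 * n + 1)) h2
    convert this using 1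
    push_cast; ring
  have hI : ∀ s ∈ I, rb s = 1 → β s ∈ J' := by
    intro s hs es
    obtain ⟨e, he, p, hp, eq⟩ := hT.conj_odd hW.odd hW.g0D hs
    have ep : rb p = 1 := by
      have := (hf _ _ eq).1
      rw [map_mul, map_mul, es, mul_one, ← map_mul, mul_inv_cancel, map_one, map_mul, map_pow, es,
        one_pow, mul_one] at this
      exact this.symm
    obtain ⟨m, hm', em⟩ := hT.odd p hp
    have k1 := hodd p ep m hm'
    rw [(hf (p ^ m) 1 (by rw [map_pow, em, map_one])).2, h1, zero_sub, neg_mem_iff] at k1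
    have k2 := hadd p (s ^ e) ep (by rw [map_pow, es, one_pow])
    have k3 := hodd s es e he
    have k4 : β (g0 * s * g0⁻¹) - β s ∈ J' := by
      rw [(hf _ _ eq).2]
      convert J'.add_mem (J'.add_mem k2 k3) k1 using 1
      ring
    have k5 : a g0 * β s = b g0 * β (g0 * s * g0⁻¹) := by
      have : β (g0 * s) = β (g0 * s * g0⁻¹ * g0) := by rw [inv_mul_cancel_right]
      rw [hc, hc _ g0, h0] at this
      simpa using this
    rw [← J'.unit_mul_mem_iff_mem hu]
    convert J'.mul_mem_left (b g0) k4 using 1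
    rw [sub_mul, mul_sub, k5]
  intro g hg
  obtain ⟨s, hs, eq⟩ := hT.comm_dec hg hW.g0D
  have es : rb s = 1 := by
    have k1 := (hf _ _ eq).1
    have k2 : rb (g0 * g) = rb (g * g0) := by
      rw [map_mul, map_mul]
      ext c c'
      by_cases hab : c = c'
      · subst hab
        obtain ⟨c'', hc''⟩ := exists_ne c
        rw [ent1 _ _ hc''.symm, ent1 _ _ hc''.symm, hW.off hc''.symm (hH g),
          hW.off hc''.symm hW.g0H]; ring
      · rw [ent2 _ _ hab, ent2 _ _ hab, hW.off hab (hH g), hW.off hab hW.g0H]; ring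
    rw [k2, mul_assoc, map_mul rb s] at k1
    calc rb s = rb s * rb (g * g0) * rb (g * g0)⁻¹ := by
          rw [mul_assoc, ← map_mul, mul_inv_cancel, map_one, mul_one]
      _ = 1 := by rw [← k1, ← map_mul, mul_inv_cancel, map_one]
  have k1 := (hf _ _ eq).2
  rw [hc, hc _ g0, hc, h0] at k1
  rw [← J'.unit_mul_mem_iff_mem hu]
  have e : (a g0 - b g0) * β g = ((a s - 1) * β g) * b g0 + β s * (b g * b g0) := by
    linear_combination k1
  rw [e]
  refine J'.add_mem (J'.mul_mem_right _ (hm ?_ (hJ g))) (J'.mul_mem_right _ (hI s hs es))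
  rw [map_sub, ha, es]; simp

theorem zero (hW : WD ℓ ⊤ H g0 rb) (hA : LR π) (hT : TameAt ℓ ⊤ I N τ φ f) (hH : ∀ g, g ∈ H)
    {a b β : G → A} (ha : ∀ g, π (a g) = rb g 0 0) (hb : ∀ g, π (b g) = rb g 1 1)
    (hc : ∀ g k, β (g * k) = a g * β k + b k * β g) (h1 : β 1 = 0) (h0 : β g0 = 0)
    (hf : ∀ g k, f g = f k → rb g = rb k ∧ β g = β k) (g : G) : β g = 0 := by
  have key : ∀ k : ℕ, ∀ g, β g ∈ RingHom.ker π ^ k := by
    intro k
    induction k with
    | zero => intro g; simp
    | succ k ih =>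
      rw [pow_succ']
      exact fun g => step hW hA hT hH ha hb hc h1 h0 hf _ ih g trivial
  obtain ⟨n, hn⟩ := hA.nil
  have := key n g
  rwa [hn, Ideal.mem_bot] at this

/-- **the local diagonal representation** -/
theorem locdiag (hW : WD ℓ ⊤ H g0 rb) (hA : LR π) (hT : TameAt ℓ ⊤ I N τ φ f) (hH : ∀ g, g ∈ H)
    (sur : Function.Surjective π) {t : G → A} {d : G →* Aˣ} (T : TF t d)
    (ht : ∀ g, π (t g) = trc rb g) (hd : ∀ g, π (d g) = dtm rb g)
    (hf : ∀ g k, f g = f k → ∀ y, t (g * y) = t (k * y)) :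
    ∃ σ : G →* Mt A, Lift π rb σ ∧ (∀ g, trc σ g = t g) ∧ (∀ g, dtm σ g = d g) ∧
      ∀ g k, (∀ y, t (g * y) = t (k * y)) → σ g = σ k := by
  have o01 : ∀ g, rb g 0 1 = 0 := fun g => (hW.dg g (hH g)).1
  have o10 : ∀ g, rb g 1 0 = 0 := fun g => (hW.dg g (hH g)).2
  have t' : ∀ g, π (t g) = rb g 0 0 + rb g 1 1 := fun g => by
    rw [ht, trc, Matrix.trace_fin_two]
  have d' : π (d g0) = rb g0 0 0 * rb g0 1 1 := by
    rw [hd, dtm, Matrix.det_fin_two, o01, zero_mul, sub_zero]
  have ne := sub_ne_zero.2 hW.ne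
  obtain ⟨a0, ha0⟩ := sur (rb g0 0 0)
  obtain ⟨α, h1, h2⟩ := rt_ex hA (t := t g0) (d := d g0) ha0 (by rw [t', d']; ring)
    (by rw [t']; convert ne using 1; ring)
  have hβ : π (t g0 - α) = rb g0 1 1 := by rw [map_sub, t', h2, add_sub_cancel_left]
  obtain ⟨u, hu⟩ := (hA.loc (α - (t g0 - α)) (by rw [map_sub, h2, hβ]; exact ne)).exists_right_inv
  obtain ⟨M, -, -, x0, -⟩ := gm T g0 (α := α) (β := t g0 - α) (u := u) (by ring)
    (by linear_combination -h1) hu
  have hu' := congrArg π hu
  rw [map_mul, map_sub, h2, hβ, map_one] at hu'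
  have ha : ∀ g, π (ent t g0 (t g0 - α) u g) = rb g 0 0 := fun g => by
    rw [ent, map_mul, map_sub, map_mul, hβ, t', t', map_mul,
      ent1 _ _ (show (0 : Fin 2) ≠ 1 by decide), ent1 _ _ (show (1 : Fin 2) ≠ 0 by decide), o01 g, o10 g]
    linear_combination (rb g 0 0) * hu'
  have hb : ∀ g, π (en2 t g0 (t g0 - α) u g) = rb g 1 1 := fun g => by
    rw [en2, map_sub, ha, t', add_sub_cancel_left]
  have hx : ∀ g k, xx t g0 (t g0 - α) u g k = 0 := fun g k =>
    zero hW hA hT hH ha hb (β := fun g => xx t g0 (t g0 - α) u g k) (fun g g' => M.cl g g' k)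
      (M.x1 k).1 (x0 k) (fun g g' e => ⟨by
        ext i j
        fin_cases i <;> fin_cases j
        · exact (ha g).symm.trans ((congrArg π (ent_congr (hf _ _ e))).trans (ha g'))
        · exact (o01 g).trans (o01 g').symm
        · exact (o10 g).trans (o10 g').symm
        · exact (hb g).symm.trans ((congrArg π (en2_congr (hf _ _ e))).trans (hb g')),
        xx_congr_left (hf _ _ e) k⟩) g
  refine ⟨⟨⟨fun g => !![ent t g0 (t g0 - α) u g, 0; 0, en2 t g0 (t g0 - α) u g], ?_⟩,
    fun g k => ?_⟩, fun g => ?_, fun g => ?_, fun g => ?_, fun g k e => ?_⟩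
  · show !![_, 0; 0, _] = _
    rw [M.a1, M.b1, Matrix.one_fin_two]
  · show !![_, 0; 0, _] = !![_, 0; 0, _] * !![_, 0; 0, _]
    rw [M.am, M.bm, hx, hx, Matrix.mul_fin_two]
    simp
  · ext i j
    fin_cases i <;> fin_cases j
    · exact ha g
    · exact (map_zero π).trans (o01 g).symm
    · exact (map_zero π).trans (o10 g).symm
    · exact hb g
  · show Matrix.trace !![_, 0; 0, _] = _
    rw [Matrix.trace_fin_two_of, M.sum]
  · show Matrix.det !![_, 0; 0, _] = _
    rw [Matrix.det_fin_two_of, ← M.det, hx, mul_zero]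
  · show !![_, 0; 0, _] = !![_, 0; 0, _]
    rw [ent_congr e, en2_congr e]

end Vale.Agent.P022F.Lg
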