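import Vale.Agent.P022F.W.Ring
import Vale.Agent.P022F.W.Lg

/-!
# P022F, block W: the relations for a trace function without a global representation
-/

set_option linter.all false

noncomputable section

namespace Vale.Agent.P022F.Loc

open NumberField IsLocalRing
open Vale.Agent.P022 Vale.Agent.P022.H443 Vale.Agent.P022D Vale.Agent.P022D.R Vale.Agent.P022D.W
open Vale.Agent.P022.H346 (TF)
open Vale.Agent.P027M.S (mx)
open Vale.Agent.P022D.Sel (M2 IsDec)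

variable {O F : Type} [CommRing O] [Field F] {S : Dat O F} {L : Pl O} {l : ℕ} {e v : Fin 2 → O}
  {u : O}

theorem Pl.Ok.all [IsLocalRing O] [CharP F 2] (hL : L.Ok S) (hl : l ∈ L.W) {g : GQ}
    (hg : g ∈ dec (L.P l)) : g ∈ L.Hl l := by
  by_contra hn
  have hW := hL.wd hl
  obtain ⟨r1, r2, r3⟩ := hL.reg l hl
  obtain ⟨a0, a1⟩ := hL.ad l hl g hg hn
  obtain ⟨b0, b1⟩ := hL.dg l hl _ r2
  have m : ∀ g k, mx S.rb (g * k) = mx S.rb g * mx S.rb k := fun g k =>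
    congrArg Units.val (map_mul S.rb g k)
  have m0 : ∀ g k, mx S.rb (g * k) 0 0 = mx S.rb g 0 0 * mx S.rb k 0 0 := fun g k => by
    rw [m, ent1 _ _ (show (0 : Fin 2) ≠ 1 by decide), hL.dh.tri, mul_zero, add_zero]
  have m1 : ∀ g k, mx S.rb (g * k) 1 1 = mx S.rb g 1 1 * mx S.rb k 1 1 := fun g k => by
    rw [m, ent1 _ _ (show (1 : Fin 2) ≠ 0 by decide), hL.dh.tri, zero_mul, add_zero]
  have dt : ∀ g, mx S.rb g 0 0 * mx S.rb g 1 1 = 1 := fun g => by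
    rw [← hL.det g, Matrix.det_fin_two, hL.dh.tri, mul_zero, sub_zero]
  have two : (2 : F) = 0 := CharTwo.two_eq_zero
  have t1 := L.rb_tr (S := S) l g
  have t2 := L.rb_tr (S := S) l (g * L.g0 l)
  have t3 := L.rb_tr (S := S) l (L.g0 l)
  rw [map_mul] at t2
  simp only [Matrix.trace_fin_two, Matrix.mul_apply, Fin.sum_univ_two, a0, a1, b0, b1, m0, m1,
    mul_zero, zero_mul, add_zero] at t1 t2 t3
  apply r3
  have d1 := dt g
  linear_combination t3 - (mx S.rb g 1 1) * t2 +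
    (mx S.rb g 1 1 * mx S.rb (L.g0 l) 1 1) * t1 -
    (mx S.rb (L.g0 l) 0 0 - mx S.rb (L.g0 l) 1 1) * d1 +
    (mx S.rb (L.g0 l) 1 1 - L.rb S l (L.g0 l) 1 1) * two

/-- a trace function over a local `O`-algebra with nilpotent maximal ideal -/
structure Ts (S : Dat O F) (L : Pl O) {A : Type} [CommRing A] (ι : O →+* A) (π : A →+* F)
    (t d : GQ → A) : Prop where
  lr : LR π
  alg : ∀ c, π (ι c) = S.red c
  tf : ∃ d' : GQ →* Aˣ, TF t d' ∧ ∀ g, (d' g : A) = d g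
  rt : ∀ g, π (t g) = (mx S.rb g).trace
  rd : ∀ g, π (d g) = (mx S.rb g).det
  opn : ∃ U : Subgroup GQ, IsOpen (U : Set GQ) ∧ ∀ u ∈ U, ∀ g, t (g * u) = t g

variable {A : Type} [CommRing A] {ι : O →+* A} {π : A →+* F} {t d : GQ → A}

theorem Ts.pr [IsLocalRing O] [CharP F 2] (hL : L.Ok S) (hl : l ∈ L.W) (h : Ts S L ι π t d) :
    ∃ (σ : dec (L.P l) →* Mt A) (N : Subgroup (dec (L.P l)))
      (h1 : L.τ l ∈ dec (L.P l)) (h2 : L.φ l ∈ dec (L.P l)),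
      Pr π l ⊤ ((inP (L.P l)).subgroupOf (dec (L.P l))) N (L.Hd l) ⟨L.τ l, h1⟩ ⟨L.φ l, h2⟩
        ⟨L.g0 l, (hL.reg l hl).1⟩ (L.rr S l) σ (L.rs l ι (rA L ι)) ∧
      (∀ g, trc σ g = t g) ∧ (∀ g, dtm σ g = d g) ∧
      (ProOdd (L.g0 l) → ∃ m, Odd m ∧ σ ⟨L.g0 l, (hL.reg l hl).1⟩ ^ m = 1 ∧
        L.rs l ι (rA L ι) ⟨L.g0 l, (hL.reg l hl).1⟩ ^ m = 1) := by
  have h' := tst_pt hL h.lr h.alg
  obtain ⟨d', T, hd⟩ := h.tf
  obtain ⟨U, hU, hu⟩ := h.opn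
  let K : Subgroup GQ := ⟨⟨⟨{u | ∀ g, t (g * u) = t g}, fun {a b} ha hb g => by
    rw [← mul_assoc, hb, ha]⟩, fun g => by rw [mul_one]⟩, fun {a} ha g => by
    rw [← ha (g * a⁻¹), inv_mul_cancel_right]⟩
  haveI : K.Normal := ⟨fun a ha b g => by
    rw [← mul_assoc, T.comm, ← mul_assoc, ← mul_assoc, ha, mul_assoc, T.comm,
      mul_inv_cancel_right]⟩
  have := galQb
  have hK : IsOpen (K : Set GQ) := Subgroup.isOpen_mono (fun u k => hu u k) hU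
  let f : GQ →* (GQ ⧸ K) × M2 A := (QuotientGroup.mk' K).prod (rA L ι)
  have ho : IsOpen {g | f g = 1} := by
    convert hK.inter h'.opn using 1
    exact Set.ext fun g => Prod.ext_iff.trans (and_congr (QuotientGroup.eq_one_iff g) Iff.rfl)
  have hf : ∀ g k : GQ, f g = f k → (∀ y, t (g * y) = t (k * y)) ∧ rA L ι g = rA L ι k := by
    intro g k e
    refine ⟨fun y => ?_, congrArg Prod.snd e⟩
    have e1 : g⁻¹ * k ∈ K := QuotientGroup.eq.1 (congrArg Prod.fst e)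
    rw [T.comm g, T.comm k, ← e1 (y * g), mul_assoc, mul_inv_cancel_left]
  obtain ⟨N, hT⟩ := (hL.tm l (Finset.mem_union_left _ hl)).tame _ _ ho
  obtain ⟨σ, s1, s2, s3, s4⟩ := Lg.locdiag (hL.wd hl) h.lr (tame_res hT)
    (fun g => hL.all hl g.2) (fun x => by
      obtain ⟨c, rfl⟩ := S.surj x
      exact ⟨_, h.alg c⟩) (t := fun g => t g) (d := d'.comp (dec (L.P l)).subtype)
    ⟨T.one, fun g k => T.comm g k, fun g k => T.mul g k⟩
    (fun g => (h.rt g).trans (L.rb_tr l g).symm)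
    (fun g => (congrArg π (hd g)).trans ((h.rd g).trans (L.rb_det l g).symm))
    fun g k e y => (hf g k e).1 y
  have hf' : ∀ g k : dec (L.P l), f g = f k →
      (σ.prod (L.rs l ι (rA L ι))) g = (σ.prod (L.rs l ι (rA L ι))) k := fun g k e =>
    Prod.ext (s4 g k fun y => (hf g k e).1 y) (congrArg (L.ch l ι) (hf g k e).2)
  refine ⟨σ, _, _, _, ⟨hL.wd hl, h.lr, s1, L.rs_lift l h.alg h'.res,
    Lg.tame_of (tame_res hT) hf'⟩, s2, fun g => (s3 g).trans (hd g), fun hodd => ?_⟩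
  obtain ⟨m, hm, e⟩ := hodd.pow f ho
  have := hf' (⟨L.g0 l, (hL.reg l hl).1⟩ ^ m) 1 (by
    rw [Subgroup.coe_pow, map_pow, e, Subgroup.coe_one, map_one])
  rw [map_pow, map_one] at this
  exact ⟨m, hm, congrArg Prod.fst this, congrArg Prod.snd this⟩

/-- **the relations in every test ring** -/
theorem ringF [IsLocalRing O] [CharP F 2] (hc : Wc S L l e u v) (hL : L.Ok S) (hl : l ∈ L.W)
    (h : Ts S L ι π t d) :
    (t (L.g0 l) = ι (L.r (L.g0 l)).trace ∧ d (L.g0 l) = ι (L.r (L.g0 l)).det) ∧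
    (L.τ l ∉ L.Hl l → t (L.τ l) = ι (L.r (L.τ l)).trace ∧
      t (L.τ l * L.g0 l) = ι (L.r (L.τ l * L.g0 l)).trace) ∧
    (L.τ l ∈ L.Hl l → ∀ y : Fin 2 → A, y = yW L l e u v ι t →
      (∀ i, π (y i) = 1) ∧ d (L.τ l) = y 0 * y 1 * ι (L.r (L.τ l)).det ∧
      (L.φ l ∈ L.Hl l → ∀ a m, Odd m → l = 2 ^ a * m + 1 → ∀ i, y i ^ 2 ^ a = 1) ∧
      (L.φ l ∉ L.Hl l → y 1 = y 0 ^ l ∧
        ∀ c m, Odd m → l ^ 2 = 2 ^ c * m + 1 → y 0 ^ 2 ^ c = 1)) := by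
  obtain ⟨σ1, N, m1, m2, hP, t1, d1, o⟩ := h.pr hL hl
  replace o := o hc.odd
  set g0 : dec (L.P l) := ⟨L.g0 l, (hL.reg l hl).1⟩ with hg0
  set τ : dec (L.P l) := ⟨L.τ l, m1⟩ with hτ0
  have he : W.Tm π (L.rr S l) g0 fun i => ι (e i) := by
    obtain ⟨m, hm, k⟩ := hc.tm
    exact ⟨m, hm, fun i => ⟨by rw [← map_pow, (k i).1, map_one], by rw [h.alg, (k i).2]; rfl⟩⟩
  have o1 : ∃ m, Odd m ∧ σ1 g0 ^ m = 1 := o.imp fun m hm => ⟨hm.1, hm.2.1⟩
  have o2 : ∃ m, Odd m ∧ L.rs l ι (rA L ι) g0 ^ m = 1 := o.imp fun m hm => ⟨hm.1, hm.2.2⟩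
  have T1 := hP.T.comp (MonoidHom.fst _ _)
  have T2 := hP.T.comp (MonoidHom.snd _ _)
  have hD := hP.T.ID hP.T.tau
  have t2 : ∀ g : dec (L.P l), trc (L.rs l ι (rA L ι)) g = ι (L.r g).trace := fun g =>
    (L.rs_tr l ι _ g).trans (rA_tr _)
  have d2 : ∀ g : dec (L.P l), dtm (L.rs l ι (rA L ι)) g = ι (L.r g).det := fun g =>
    (L.rs_dt l ι _ g).trans (rA_dt _)
  have k0 : ∀ {σ : dec (L.P l) →* M2 A}, Lift π (L.rr S l) σ →
      TameAt l ⊤ ((inP (L.P l)).subgroupOf (dec (L.P l))) N τ ⟨L.φ l, m2⟩ σ →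
      (∃ m, Odd m ∧ σ g0 ^ m = 1) →
      trc σ g0 = ι (e 0) + ι (e 1) ∧ dtm σ g0 = ι (e 0) * ι (e 1) := by
    intro σ hσ hT o
    obtain ⟨P, Q, h1, h2, hP', hM⟩ := exists_mon hP.W hP.A hσ hT
    have eg := hM.eig hP.W hP.A (hσ.cj h1 h2 hP') he (o.imp fun m hm => ⟨hm.1, by
      rw [MonoidHom.comp_apply, ← map_pow, hm.2, map_one]⟩)
    rw [← trc_cj σ P Q h1 h2, ← dtm_cj σ P Q h1 h2]
    simp only [trc, dtm, Matrix.trace_fin_two, Matrix.det_fin_two, eg,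
      hM.off _ hP.W.g0D hP.W.g0H 0 1 (by decide), zero_mul, sub_zero, and_self]
  refine ⟨?_, fun hτ => ?_, fun hτ y hy => ?_⟩
  · exact ⟨(t1 g0).symm.trans ((k0 hP.l1 T1 o1).1.trans ((k0 hP.l2 T2 o2).1.symm.trans (t2 g0))),
      (d1 g0).symm.trans ((k0 hP.l1 T1 o1).2.trans ((k0 hP.l2 T2 o2).2.symm.trans (d2 g0)))⟩
  · obtain ⟨a1, a2⟩ := (dd_lin hP.W hP.A hP.l1 T1 he o1 hD).2.2 hτ
    obtain ⟨b1, b2⟩ := (dd_lin hP.W hP.A hP.l2 T2 he o2 hD).2.2 hτ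
    refine ⟨(t1 τ).symm.trans (a1.trans (b1.symm.trans (t2 τ))), ?_⟩
    have c : ∀ σ : dec (L.P l) →* M2 A, trc σ (τ * g0) = trc σ (g0 * τ) := fun σ => by
      simp only [trc, map_mul]; exact Matrix.trace_mul_comm _ _
    exact (t1 (τ * g0)).symm.trans ((c _).trans (a2.trans (b2.symm.trans
      ((c _).symm.trans (t2 (τ * g0))))))
  · have k : y = yy π (L.rr S l g0 0 0) g0 τ (trc σ1) (dtm σ1)
        (trc (L.rs l ι (rA L ι))) (dtm (L.rs l ι (rA L ι))) := by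
      funext i
      have c := congrArg ι (hc.chi hτ i)
      have q2 := th_dd (dec (L.P l)).subtype (t := fun g => ι (L.r g).trace) t2 hP.W hP.A hP.l2 T2
        he hc.inv o2 hD hτ i
      have q1 := th_dd (dec (L.P l)).subtype (t := t) t1 hP.W hP.A hP.l1 T1
        he hc.inv o1 hD hτ i
      rw [map_mul, map_one, th_map ι (ι' := ι) (t' := fun g => ι (L.r g).trace) (fun _ => rfl)
        (fun g => rfl)] at c
      erw [q2] at c
      rw [hy, yy]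
      erw [← q1]
      rw [yW, mul_comm]
      congr 1
      have hu := IsUnit.of_mul_eq_one_right _ c
      apply hu.mul_right_cancel
      rw [c]
      exact (Ring.inverse_mul_cancel _ hu).symm
    obtain ⟨p1, p2, -, p4, p5⟩ := hP.unr hτ y k
    rw [d1, d2] at p2
    exact ⟨p1, p2, p4, p5⟩

/-- the normalised determinant of `τ` has order dividing the `2`-part of `l - 1` -/
theorem Ts.dl [IsLocalRing O] [CharP F 2] (hL : L.Ok S) (hl : l ∈ L.W)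
    (h : Ts S L ι π t d) {a m : ℕ} (hm : Odd m) (ha : l = 2 ^ a * m + 1) {x : O}
    (hx : x * (L.r (L.τ l)).det = 1) : (d (L.τ l) * ι x) ^ 2 ^ a = 1 := by
  obtain ⟨σ, N, m1, m2, hP, -, d1, -⟩ := h.pr hL hl
  obtain ⟨-, p2, -, p4, -⟩ := hP.unr (hL.all hl m1) _ rfl
  have b3 := p4 (hL.all hl m2) a m hm ha
  rw [d1, (L.rs_dt l ι _ _).trans (rA_dt _)] at p2
  have hx' := congrArg ι hx
  rw [map_mul, map_one] at hx'
  erw [p2]
  rw [mul_assoc, mul_comm _ (ι x)]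
  erw [hx']
  rw [mul_one, mul_pow, b3, b3, mul_one]

end Vale.Agent.P022F.Loc
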